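import Vale.Agent.P246.MathlibUsed

namespace Vale.Agent.P246

open CategoryTheory

section General

variable {R : Type} [Ring R]

variable (R) in
/-- Chain complexes `⋯ → C_2 → C_1 → C_0` of left `R`-modules. -/
def Cx : Type 1 := ChainComplex (ModuleCat.{0} R) ℕ

/-- The module `C_i`. -/
def Cx.X (C : Cx R) (i : ℕ) : ModuleCat.{0} R := HomologicalComplex.X C i

/-- The boundary map `C_{i+1} → C_i`. -/
def Cx.d (C : Cx R) (i : ℕ) : C.X (i + 1) ⟶ C.X i := HomologicalComplex.d C (i + 1) i

/-- `H_i(C) = 0`. -/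
def Cx.Acyclic (C : Cx R) (i : ℕ) : Prop := HomologicalComplex.ExactAt C i

/-- `C` and `D` are chain homotopy equivalent. -/
def Cx.Equiv (C D : Cx R) : Prop := Nonempty (HomotopyEquiv C D)

/-- Finitely generated free modules. -/
def FGFree (M : ModuleCat.{0} R) : Prop := Module.Free R M ∧ Module.Finite R M

/-- For `A → B → D`, every map from `B` to a finitely generated module `M` that vanishes on the
image of `A` factors through `B → D`. -/
def CohVanish {A B D : ModuleCat.{0} R} (f : A ⟶ B) (g : B ⟶ D) : Prop :=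
  ∀ M : ModuleCat.{0} R, Module.Finite R M → ∀ φ : B ⟶ M, f ≫ φ = 0 → ∃ ψ : D ⟶ M, φ = g ≫ ψ

/-- The Euler characteristic. -/
noncomputable def Cx.euler (C : Cx R) : ℤ :=
  ∑ᶠ i : ℕ, (-1) ^ i * (Module.finrank R (C.X i) : ℤ)

/-- The linear map `R^a → M` with `e_i ↦ v i`. -/
noncomputable def lmap {a : ℕ} {M : Type} [AddCommGroup M] [Module R M] (v : Fin a → M) :
    (Fin a → R) →ₗ[R] M := Fintype.linearCombination R v

/-- The modules of the complex `⋯ 0 → R^b → R^a → R`. -/
def threeX (R : Type) [Ring R] (a b : ℕ) : ℕ → ModuleCat.{0} R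
  | 0 => ModuleCat.of R R
  | 1 => ModuleCat.of R (Fin a → R)
  | 2 => ModuleCat.of R (Fin b → R)
  | _ + 3 => ModuleCat.of R PUnit

/-- Its boundary maps, with `R^a → R`, `e_i ↦ v i`, and `R^b → R^a`, `e_j ↦ w j`. -/
noncomputable def threeD {a b : ℕ} (v : Fin a → R) (w : Fin b → Fin a → R) :
    ∀ i, threeX R a b (i + 1) ⟶ threeX R a b i
  | 0 => ModuleCat.ofHom (lmap v)
  | 1 => ModuleCat.ofHom (lmap w)
  | _ + 2 => 0

end General

/-- The integral group ring `ℤ[G]`. -/
abbrev ZG (G : Type) [Group G] : Type := MonoidAlgebra ℤ G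

section Group

variable {G : Type} [Group G]

/-- The basis element of `ℤ[G]` given by `g ∈ G`. -/
noncomputable def elt (g : G) : ZG G := MonoidAlgebra.single g 1

/-- The cokernel of `f` is `ℤ` with trivial action of `G`. -/
def CokerTrivial {A B : Type} [AddCommGroup A] [Module (ZG G) A] [AddCommGroup B] [Module (ZG G) B]
    (f : A →ₗ[ZG G] B) : Prop :=
  ∃ ε : B → ℤ, Function.Surjective ε ∧ (∀ x y, ε (x + y) = ε x + ε y) ∧
    (∀ (g : G) (x : B), ε (elt g • x) = ε x) ∧ ∀ x, ε x = 0 ↔ ∃ y, f y = x

variable (G) in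
/-- A finite presentation of the group `G`: generators `x i ∈ G` and relators `r j`, words in the
free group, whose normal closure is the kernel of the surjection from the free group to `G`. -/
structure FinPresentation where
  gens : ℕ
  rels : ℕ
  x : Fin gens → G
  r : Fin rels → FreeGroup (Fin gens)
  surj : Function.Surjective (FreeGroup.lift x)
  ker_eq : (FreeGroup.lift x).ker = Subgroup.normalClosure (Set.range r)

/-- One step of Fox calculus: the Fox derivatives of `l w` from those of `w`, where the letter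
`l = (i, true)` stands for `x_i` and `l = (i, false)` for `x_i⁻¹`. -/
noncomputable def foxStep {m : ℕ} (x : Fin m → G) (l : Fin m × Bool) (v : Fin m → ZG G)
    (k : Fin m) : ZG G :=
  if l.2 then (if k = l.1 then 1 else 0) + elt (x l.1) * v k
  else elt (x l.1)⁻¹ * (v k - if k = l.1 then 1 else 0)

/-- The vector of Fox derivatives `(∂w/∂x_i)_i`, with values in `ℤ[G]`, of a word `w`. -/
noncomputable def foxWord {m : ℕ} (x : Fin m → G) (w : List (Fin m × Bool)) : Fin m → ZG G :=
  w.foldr (foxStep x) 0

end Group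

end Vale.Agent.P246
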