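import Mathlib.Algebra.AffineMonoid.Basic
import Mathlib.Algebra.AffineMonoid.UniqueSums
import Mathlib.Algebra.Category.ModuleCat.Projective
import Mathlib.Algebra.Homology.DerivedCategory.KProjective
import Mathlib.Algebra.Homology.ShortComplex.ModuleCat
import Mathlib.Algebra.Module.StablyFree.Basic
import Mathlib.Algebra.Order.PUnit
import Mathlib.Algebra.Order.Ring.Star
import Mathlib.CategoryTheory.Sites.Types
import Mathlib.Combinatorics.Quiver.ReflQuiver
import Mathlib.Computability.Reduce
import Mathlib.Data.Int.Star
import Mathlib.GroupTheory.FreeGroup.Reduce
import Mathlib.GroupTheory.MonoidLocalization.UniqueFactorization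
import Mathlib.LinearAlgebra.Matrix.ZPow
import Mathlib.RingTheory.Henselian
import Mathlib.RingTheory.RegularLocalRing.Defs
import Mathlib.RingTheory.SimpleRing.Principal
import Mathlib.RingTheory.TotallySplit
import Mathlib.Tactic

/-! The part of Mathlib that the development of this folder uses. -/
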